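import Vale.Agent.P167.H564.Win

/-!
# P167, rough channels in rings: components

`cmps c κ`: the components of `κ` for common corners of the colour `c`. `NoHo`: no holes in a strip of
either direction; it is inherited by the components.
-/

set_option autoImplicit false

namespace Vale.Agent.P167.H564

open Finset Vale.Agent.P167 Vale.Agent.P167.FK Vale.Agent.P167.H871 Vale.Agent.P167.H632
  Vale.Agent.P167.H192.TA
open Vale.Agent.P167.N Vale.Agent.P167.N.NET Vale.Agent.P167.H24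
open Vale.Agent.P167.H166 (bxx mem_bxx)
open Vale.Agent.P145.FB (PStep PConn)
open Relation (ReflTransGen)

variable {c : Bool} {κ : Finset Pt} {F : Set Pt}

open Classical in
/-- The component of `v` in `κ`. -/
noncomputable def cmp (c : Bool) (κ : Finset Pt) (v : Pt) : Finset Pt :=
  κ.filter fun z => Jd c ↑κ v z

open Classical in
/-- The components of `κ`. -/
noncomputable def cmps (c : Bool) (κ : Finset Pt) : Finset (Finset Pt) := κ.image (cmp c κ)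

theorem mem_cmp {v z : Pt} : z ∈ cmp c κ v ↔ Jd c ↑κ v z := by
  classical
  unfold cmp
  rw [Finset.mem_filter]
  exact ⟨fun h => h.2, fun h => ⟨Finset.mem_coe.1 h.mem, h⟩⟩

theorem cmp_sub {v : Pt} : cmp c κ v ⊆ κ := fun _ h => Finset.mem_coe.1 (mem_cmp.1 h).mem

theorem cmp_eq {v z : Pt} (h : Jd c ↑κ v z) : cmp c κ z = cmp c κ v := by
  ext w
  rw [mem_cmp, mem_cmp]
  exact ⟨fun h' => h.trans h', fun h' => h.symm.trans h'⟩

theorem mem_cmps {K : Finset Pt} : K ∈ cmps c κ ↔ ∃ v ∈ κ, cmp c κ v = K := by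
  classical
  unfold cmps
  rw [Finset.mem_image]

theorem cmps_sub {K : Finset Pt} (h : K ∈ cmps c κ) : K ⊆ κ := by
  obtain ⟨v, -, rfl⟩ := mem_cmps.1 h
  exact cmp_sub

/-- A component is connected. -/
theorem cmps_con {K : Finset Pt} (h : K ∈ cmps c κ) {v z : Pt} (hv : v ∈ K) (hz : z ∈ K) :
    Jd c ↑K v z := by
  obtain ⟨v0, -, rfl⟩ := mem_cmps.1 h
  have h0 := mem_cmp.1 hv
  have h1 : Jd c ↑κ v z := h0.symm.trans (mem_cmp.1 hz)
  refine ⟨hv, ?_⟩
  have h2 := h1.2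
  clear hz h1
  induction h2 with
  | refl => exact ReflTransGen.refl
  | @tail a b ha hb ih =>
    refine ih.tail ⟨?_, hb.2⟩
    rw [Finset.mem_coe, mem_cmp]
    exact h0.trans (Jd.tail ⟨h0.mem, ha⟩ hb.1 hb.2)

/-- A square of `κ` adjacent to a component belongs to it. -/
theorem cmps_adj {K : Finset Pt} (h : K ∈ cmps c κ) {v z : Pt} (hv : v ∈ K) (hz : z ∈ κ)
    (hvz : Adj c v z) : z ∈ K := by
  obtain ⟨v0, -, rfl⟩ := mem_cmps.1 h
  rw [mem_cmp] at hv ⊢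
  exact hv.tail hz hvz

theorem sum_cmps (c : Bool) (κ : Finset Pt) : ∑ K ∈ cmps c κ, K.card ≤ κ.card := by
  classical
  unfold cmps
  rw [Finset.card_eq_sum_card_image (cmp c κ) κ]
  refine Finset.sum_le_sum fun K hK => ?_
  obtain ⟨v, -, rfl⟩ := Finset.mem_image.1 hK
  refine Finset.card_le_card fun z hz => ?_
  rw [Finset.mem_filter]
  exact ⟨cmp_sub hz, cmp_eq (mem_cmp.1 hz)⟩

/-- A path of squares of `κ` stays in the component of its first square. -/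
theorem path_cmp {v s s' : Pt} (hv : v ∈ κ) (hs : Cor c v s) (h : Pw (F ∩ ↑κ) s s') :
    Pw (F ∩ ↑(cmp c κ v)) s s' := by
  have key : Pw (F ∩ ↑(cmp c κ v)) s s' ∧ ∃ z, z ∈ cmp c κ v ∧ Cor c z s' := by
    induction h with
    | refl => exact ⟨ReflTransGen.refl, v, mem_cmp.2 (Jd.refl hv), hs⟩
    | @tail y z _ hyz ih =>
      obtain ⟨ih, w, hw1, hw2⟩ := ih
      obtain ⟨h1, h2, -⟩ := cor_of_step hyz hw2.2.2
      have h3 : (min y.1 z.1, min y.2 z.2) ∈ cmp c κ v := by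
        rw [mem_cmp] at hw1 ⊢
        exact hw1.tail hyz.2.2.2 ⟨y, hw2, h1⟩
      exact ⟨ih.tail ⟨hyz.1, hyz.2.1, hyz.2.2.1, h3⟩, _, h3, h2⟩
  exact key.1

/-- The component which is crossed by a path. -/
theorem exists_cmps {s s' : Pt} (hs : (s.1 + s.2) % 2 = pr c) (hne : s ≠ s')
    (h : Pw (F ∩ ↑κ) s s') : ∃ K ∈ cmps c κ, Pw (F ∩ ↑K) s s' ∧ s ∈ Vc c ↑K ∧ s' ∈ Vc c ↑K := by
  rcases ReflTransGen.cases_head h with h1 | ⟨z, h1, h2⟩
  · exact absurd h1 hne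
  · obtain ⟨h3, h4, -⟩ := cor_of_step h1 hs
    have hv := h1.2.2.2
    have h5 := path_cmp hv h3 h
    refine ⟨cmp c κ (min s.1 z.1, min s.2 z.2), mem_cmps.2 ⟨_, hv, rfl⟩, h5,
      ⟨_, mem_cmp.2 (Jd.refl hv), h3⟩, ?_⟩
    rcases ReflTransGen.cases_tail h5 with h6 | ⟨w, h6, h7⟩
    · exact absurd h6.symm hne
    · have h8 : (w.1 + w.2) % 2 = pr c := by rw [← hs]; exact (Pw.parity h6).symm
      exact ⟨_, h7.2.2.2, (cor_of_step h7 h8).2.1⟩

/-! ### No holes -/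

/-- Far away in the direction of the strip. -/
def FarO (o : Bool) (κ : Finset Pt) (v : Pt) : Prop :=
  (∀ z ∈ κ, co (!o) z < co (!o) v) ∨ (∀ z ∈ κ, co (!o) v < co (!o) z)

/-- No holes, strips of either direction. -/
def NoHo (o c : Bool) (κ : Finset Pt) (y0 y1 : ℤ) : Prop :=
  ∀ v ∈ St o y0 y1, v ∉ κ → ∃ v', Jd (!c) {z | z ∈ St o y0 y1 ∧ z ∉ κ} v v' ∧
    (co o v' = y0 ∨ co o v' = y1 - 1 ∨ FarO o κ v')

/-- The sites of the colour `c` on a line. -/
def ln (o c : Bool) (y : ℤ) : Set Pt := {x | co o x = y ∧ (x.1 + x.2) % 2 = pr c}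

/-- Crossing of channels in strips, either direction. -/
def CHo (o : Bool) (Q : ℝ) : Prop := ∃ G : ℝ, 0 < G ∧ ∀ (c : Bool) (κ : Finset Pt) (y0 y1 : ℤ),
  y0 < y1 → (∀ v ∈ κ, v ∈ St o y0 y1) → NoHo o c κ y0 y1 → ∀ η, Good η →
    Pr Q κ η (NET.Jn c ↑κ (ln o c y0) (ln o c y1)) ≤
      G * ((κ.card : ℝ) / ((y1 - y0 : ℤ) : ℝ) ^ 2) ^ 2

theorem cho_false {Q : ℝ} (h : CH Q) : CHo false Q := h

/-- The neighbour in the direction of the strip. -/
def nb (o : Bool) (v : Pt) : Pt := if o then (v.1, v.2 + 1) else (v.1 + 1, v.2)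

theorem adj_nb (o c : Bool) (v : Pt) : Adj c v (nb o v) := by
  cases o
  · exact adj_right c v
  · exact adj_up c v

theorem co_nb (o : Bool) (v : Pt) : co o (nb o v) = co o v ∧ co (!o) (nb o v) = co (!o) v + 1 := by
  cases o <;> exact ⟨rfl, rfl⟩

/-- The components have no holes. -/
theorem NoHo.cmps {o : Bool} {y0 y1 : ℤ} (h : NoHo o c κ y0 y1) {K : Finset Pt}
    (hK : K ∈ cmps c κ) : NoHo o c K y0 y1 := by
  have hKκ := cmps_sub hK
  have h0 : ∀ v ∈ St o y0 y1, v ∉ κ → ∃ v', Jd (!c) {z | z ∈ St o y0 y1 ∧ z ∉ K} v v' ∧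
      (co o v' = y0 ∨ co o v' = y1 - 1 ∨ FarO o K v') := by
    intro v hv hvκ
    obtain ⟨v', h1, h2⟩ := h v hv hvκ
    have h3 : {z | z ∈ St o y0 y1 ∧ z ∉ κ} ⊆ {z | z ∈ St o y0 y1 ∧ z ∉ K} :=
      fun z hz => ⟨hz.1, fun h' => hz.2 (hKκ h')⟩
    refine ⟨v', h1.mono h3, ?_⟩
    rcases h2 with h2 | h2 | h2 | h2
    · exact Or.inl h2
    · exact Or.inr (Or.inl h2)
    · exact Or.inr (Or.inr (Or.inl fun z hz => h2 z (hKκ hz)))
    · exact Or.inr (Or.inr (Or.inr fun z hz => h2 z (hKκ hz)))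
  obtain ⟨M, hM⟩ : ∃ M : ℤ, ∀ z ∈ K, co (!o) z < M := by
    obtain ⟨M, hM⟩ := (K.image (co (!o))).bddAbove
    exact ⟨M + 1, fun z hz => Int.lt_add_one_of_le (hM (Finset.mem_coe.2
      (Finset.mem_image_of_mem _ hz)))⟩
  have key : ∀ n : ℕ, ∀ v ∈ St o y0 y1, v ∉ K → M - co (!o) v ≤ n →
      ∃ v', Jd (!c) {z | z ∈ St o y0 y1 ∧ z ∉ K} v v' ∧
      (co o v' = y0 ∨ co o v' = y1 - 1 ∨ FarO o K v') := by
    intro n
    induction n with
    | zero =>
      intro v hv hvK hn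
      refine ⟨v, Jd.refl ⟨hv, hvK⟩, Or.inr (Or.inr (Or.inl fun z hz => ?_))⟩
      have := hM z hz
      push_cast at hn
      omega
    | succ n ih =>
      intro v hv hvK hn
      obtain ⟨e1, e2⟩ := co_nb o v
      by_cases hκ : v ∈ κ
      · have h1 : nb o v ∉ K := by
          intro h1
          exact hvK (cmps_adj hK h1 hκ (adj_nb o c v).symm)
        have h2 : nb o v ∈ St o y0 y1 := by
          unfold St at hv ⊢
          rw [Set.mem_ofPred_eq] at hv ⊢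
          rw [e1]
          exact hv
        obtain ⟨v', h3, h4⟩ := ih (nb o v) h2 h1 (by push_cast at hn; omega)
        have h5 : v ∈ {z | z ∈ St o y0 y1 ∧ z ∉ K} := ⟨hv, hvK⟩
        have h6 : nb o v ∈ {z | z ∈ St o y0 y1 ∧ z ∉ K} := ⟨h2, h1⟩
        exact ⟨v', (Jd.tail (Jd.refl h5) h6 (adj_nb o _ v)).trans h3, h4⟩
      · exact h0 v hv hκ
  intro v hv hvK
  exact key (M - co (!o) v).toNat v hv hvK (Int.self_le_toNat _)

end Vale.Agent.P167.H564
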