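import Vale.Agent.P167.H564.UT
import Vale.Agent.P167.FK.Sym

/-!
# P167, rough channels in strips: the transposed estimate
-/

set_option autoImplicit false

namespace Vale.Agent.P167.H564

open Finset Vale.Agent.P167 Vale.Agent.P167.FK Vale.Agent.P167.H871 Vale.Agent.P167.H632
  Vale.Agent.P167.H192.TA
open Vale.Agent.P167.N Vale.Agent.P167.N.NET Vale.Agent.P167.H24
open Vale.Agent.P167.FKA (Pr_mono)
open Vale.Agent.P145.FB (PStep PConn)
open Relation (ReflTransGen)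

variable {Q : ℝ} {c : Bool}

/-- Exchange of the coordinates. -/
def sw (v : Pt) : Pt := (v.2, v.1)

theorem sw_sw (v : Pt) : sw (sw v) = v := rfl

theorem co_sw (o : Bool) (v : Pt) : co o (sw v) = co (!o) v := by cases o <;> rfl

theorem sw_step {F : Set Pt} {u v : Pt} (h : PStep F u v) : PStep {z | sw z ∈ F} (sw u) (sw v) :=
  ⟨h.2.1, h.1, h.2.2⟩

theorem sw_pw {F : Set Pt} {u v : Pt} (h : Pw F u v) : Pw {z | sw z ∈ F} (sw u) (sw v) := by
  induction h with
  | refl => exact ReflTransGen.refl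
  | tail _ h2 ih => exact ih.tail (sw_step h2)

theorem sw_cor {v x : Pt} (h : Cor c v x) : Cor c (sw v) (sw x) :=
  ⟨h.2.1, h.1, by have := h.2.2; simp only [sw]; omega⟩

theorem sw_adj {v w : Pt} (h : Adj c v w) : Adj c (sw v) (sw w) := by
  obtain ⟨x, h1, h2⟩ := h
  exact ⟨sw x, sw_cor h1, sw_cor h2⟩

theorem sw_jd {F F' : Set Pt} (hF : ∀ z ∈ F, sw z ∈ F') {v w : Pt} (h : Jd c F v w) :
    Jd c F' (sw v) (sw w) := by
  refine ⟨hF _ h.1, ?_⟩
  have h2 := h.2
  clear h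
  induction h2 with
  | refl => exact ReflTransGen.refl
  | tail _ h2 ih => exact ih.tail ⟨hF _ h2.1, sw_adj h2.2⟩

theorem mem_sw {κ : Finset Pt} {v : Pt} : v ∈ κ.image sw ↔ sw v ∈ κ := by
  rw [Finset.mem_image]
  constructor
  · rintro ⟨w, hw, rfl⟩
    exact hw
  · exact fun h => ⟨sw v, h, rfl⟩

theorem card_sw (κ : Finset Pt) : (κ.image sw).card = κ.card :=
  Finset.card_image_of_injective _ fun u v h => by
    have := congrArg sw h
    exact this

theorem noHo_sw {o : Bool} {κ : Finset Pt} {y0 y1 : ℤ} (h : NoHo o c κ y0 y1) :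
    NoHo (!o) c (κ.image sw) y0 y1 := by
  intro v hv hvκ
  rw [mem_sw] at hvκ
  have h1 : sw v ∈ St o y0 y1 := by
    unfold St at hv ⊢
    rw [Set.mem_ofPred_eq] at hv ⊢
    rw [co_sw]
    exact hv
  obtain ⟨v', h2, h3⟩ := h _ h1 hvκ
  refine ⟨sw v', ?_, ?_⟩
  · have h4 : ∀ z ∈ {z | z ∈ St o y0 y1 ∧ z ∉ κ},
        sw z ∈ {z | z ∈ St (!o) y0 y1 ∧ z ∉ κ.image sw} := by
      rintro z ⟨h5, h6⟩
      refine ⟨?_, ?_⟩
      · unfold St at h5 ⊢
        rw [Set.mem_ofPred_eq] at h5 ⊢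
        rw [co_sw, Bool.not_not]
        exact h5
      · rw [mem_sw]
        exact h6
    exact sw_jd h4 h2
  · rw [co_sw, Bool.not_not]
    rcases h3 with h3 | h3 | h3 | h3
    · exact Or.inl h3
    · exact Or.inr (Or.inl h3)
    · refine Or.inr (Or.inr (Or.inl fun z hz => ?_))
      have := h3 _ (mem_sw.1 hz)
      rw [co_sw, Bool.not_not] at this
      rw [Bool.not_not, co_sw]
      exact this
    · refine Or.inr (Or.inr (Or.inr fun z hz => ?_))
      have := h3 _ (mem_sw.1 hz)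
      rw [co_sw, Bool.not_not] at this
      rw [Bool.not_not, co_sw]
      exact this

theorem jn_sw {κ : Finset Pt} {o : Bool} {y0 y1 : ℤ} {ω : Cfg}
    (h : ω ∈ Jn c ↑κ (ln o c y0) (ln o c y1)) :
    ω ∘ sw ∈ Jn c ↑(κ.image sw) (ln (!o) c y0) (ln (!o) c y1) := by
  obtain ⟨u, ⟨hu1, hu2⟩, v, ⟨hv1, hv2⟩, h1⟩ := h
  refine ⟨sw u, ⟨by rw [co_sw, Bool.not_not]; exact hu1, ?_⟩, sw v,
    ⟨by rw [co_sw, Bool.not_not]; exact hv1, ?_⟩, ?_⟩
  · rw [← hu2]
    simp only [sw]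
    rw [add_comm]
  · rw [← hv2]
    simp only [sw]
    rw [add_comm]
  · refine (sw_pw h1).mono ?_
    rintro z ⟨h2, h3⟩
    exact ⟨h2, Finset.mem_coe.2 (mem_sw.2 (Finset.mem_coe.1 h3))⟩

theorem cho_sw (hQ : 0 < Q) {o : Bool} (h : CHo o Q) : CHo (!o) Q := by
  obtain ⟨G, hG, h⟩ := h
  refine ⟨G, hG, fun c κ y0 y1 hy hκ hN η hη => ?_⟩
  have hs : sw ∈ syms := by
    simp only [syms, List.mem_cons, List.not_mem_nil, or_false]
    exact Or.inr (Or.inr (Or.inr (Or.inr rfl)))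
  obtain ⟨f1, f2⟩ := f_sym sw hs
  have h1 := h c (κ.image sw) y0 y1 hy (fun v hv => by
    have h2 := hκ _ (mem_sw.1 hv)
    unfold St at h2 ⊢
    rw [Set.mem_ofPred_eq] at h2 ⊢
    rw [co_sw, Bool.not_not] at h2
    exact h2) (by have := noHo_sw hN; rwa [Bool.not_not] at this) (η ∘ sw) (f1 η hη)
  rw [card_sw] at h1
  refine le_trans ?_ h1
  unfold Pr
  rw [f2 Q (κ.image sw) η _ hQ hη]
  have e1 : (κ.image sw).image sw = κ := by
    ext v
    rw [mem_sw, mem_sw, sw_sw]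
  rw [e1]
  refine FKA.Ex_mono hQ fun S _ => ?_
  generalize cf κ η S = ω
  by_cases h2 : ω ∈ Jn c ↑κ (ln (!o) c y0) (ln (!o) c y1)
  · have h3 := jn_sw h2
    rw [Bool.not_not] at h3
    rw [Set.indicator_of_mem h2, Set.indicator_of_mem h3]
    exact le_rfl
  · rw [Set.indicator_of_notMem h2]
    exact Set.indicator_nonneg (fun _ _ => zero_le_one) _

/-- Both directions. -/
theorem cho_all (hQ : 0 < Q) (h : CH Q) (o : Bool) : CHo o Q := by
  cases o
  · exact h
  · exact cho_sw hQ (o := false) h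

/-- One arm in a rough set of squares with connected complement, from the two estimates. -/
theorem utc (hQ : 0 < Q) (h : CH Q) (hB : Bar Q) : N.QC.UTc Q :=
  utc_of hQ (utg_of hQ (cho_all hQ h) hB)

end Vale.Agent.P167.H564
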