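import Vale.Agent.P167.H564.Comp
import Vale.Agent.P167.N.QC.Nh

/-!
# P167: one arm in a rough set of squares of a ring with connected complement

`Bar`: paths from a connected set inside of a ring to a connected set outside of the ring. `UTg`: all
crossings. `utg_of`: `UTg` from `Bar` and from the estimate `CHo` for channels in strips.
-/

set_option autoImplicit false

namespace Vale.Agent.P167.H564

open Finset Vale.Agent.P167 Vale.Agent.P167.FK Vale.Agent.P167.H871 Vale.Agent.P167.H632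
  Vale.Agent.P167.H192.TA
open Vale.Agent.P167.N Vale.Agent.P167.N.NET Vale.Agent.P167.H24
open Vale.Agent.P167.H166 (bxx mem_bxx)
open Vale.Agent.P167.FKA (Pr_mono)
open Vale.Agent.P145.FB (PStep PConn)
open Relation (ReflTransGen)

variable {Q : ℝ} {c : Bool}

/-- The complement is connected through common corners of the other colour. -/
def Cn (c : Bool) (U : Finset Pt) : Prop := ∀ v w, v ∉ U → w ∉ U → Jd (!c) (↑U : Set Pt)ᶜ v w

/-- **One class of crossings.** -/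
def Bar (Q : ℝ) : Prop := ∃ α C : ℝ, 0 < α ∧ 0 < C ∧ ∀ (c : Bool) (x : Pt) (t R : ℤ), 1 ≤ t → t ≤ R →
  ∀ U K K' : Finset Pt, Cn c U → (∃ v ∈ bxx x t, v ∉ U) → K ⊆ U → K ⊆ bxx x t →
    (∀ v ∈ K, ∀ z ∈ K, Jd c ↑K v z) → K' ⊆ U → Disjoint K' (bxx x R) →
    (∀ v ∈ K', ∀ z ∈ K', Jd c ↑K' v z) → ∀ ζ, Good ζ →
      Pr Q (U ∩ (bxx x R \ bxx x t)) ζ (Jn c ↑U (Vc c ↑K) (Vc c ↑K')) ≤ C * ((t : ℝ) / R) ^ α

/-- The sites of the colour `c` at distance at most `r`. -/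
def Si (c : Bool) (x : Pt) (r : ℤ) : Set Pt := {s | (s.1 + s.2) % 2 = pr c ∧ nm (s - x) ≤ r}

/-- The sites of the colour `c` at distance at least `R`. -/
def So (c : Bool) (x : Pt) (R : ℤ) : Set Pt := {s | (s.1 + s.2) % 2 = pr c ∧ R ≤ nm (s - x)}

/-- **One arm in a set of squares of a ring with connected complement.** -/
def UTg (Q : ℝ) : Prop := ∃ α C : ℝ, 0 < α ∧ 0 < C ∧ ∀ (c : Bool) (x : Pt) (r R : ℤ), 1 ≤ r → r ≤ R →
  ∀ G : Finset Pt, G ⊆ bxx x R \ bxx x r → Cn c G → ∀ η, Good η →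
    Pr Q G η (Jn c ↑G (Si c x (r + 2)) (So c x (R - 1))) ≤ C * ((r : ℝ) / R) ^ α

/-! ### No holes in the windows -/

theorem noHo_win {U : Finset Pt} (hU : Cn c U) (o σ : Bool) (x : Pt) {a b : ℤ} (ha : 0 ≤ a)
    (hab : a + 1 < b) : NoHo o c (U ∩ Wn o σ x a b) (wl o σ x a b) (wh o σ x a b) := by
  have hb : ∀ v ∈ St o (wl o σ x a b) (wh o σ x a b), |co o v - co o x| ≤ b := by
    intro v hv
    unfold St wl wh at hv
    rw [Set.mem_ofPred_eq] at hv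
    rw [abs_le]
    split_ifs at hv <;> omega
  have hfar : ∀ v ∈ St o (wl o σ x a b) (wh o σ x a b), v ∉ bxx x b →
      FarO o (U ∩ Wn o σ x a b) v := by
    intro v hv hvb
    have h1 := hb v hv
    have h2 : ∀ z ∈ U ∩ Wn o σ x a b, |co (!o) z - co (!o) x| ≤ b := by
      intro z hz
      have := (mem_Wn.1 (Finset.mem_inter.1 hz).2).1
      rw [mem_bxx, nm_le_iff] at this
      exact this (!o)
    have h3 : b < |co (!o) v - co (!o) x| := by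
      by_contra h3
      push Not at h3
      refine hvb (mem_bxx.2 (nm_le_iff.2 fun o' => ?_))
      by_cases ho : o' = o
      · rw [ho]; exact h1
      · rw [(by cases o' <;> cases o <;> simp_all : o' = !o)]; exact h3
    rcases lt_abs.1 h3 with h4 | h4
    · left
      intro z hz
      have := (abs_le.1 (h2 z hz)).2
      omega
    · right
      intro z hz
      have := (abs_le.1 (h2 z hz)).1
      omega
  intro v hv hvκ
  by_cases hvb : v ∈ bxx x b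
  swap
  · exact ⟨v, Jd.refl ⟨hv, hvκ⟩, Or.inr (Or.inr (hfar v hv hvb))⟩
  have hvU : v ∉ U := fun h => hvκ (Finset.mem_inter.2 ⟨h, mem_Wn.2 ⟨hvb, hv⟩⟩)
  obtain ⟨w, hwU, hwb⟩ : ∃ w : Pt, w ∉ U ∧ w ∉ bxx x b := by
    obtain ⟨w, hw⟩ := Infinite.exists_notMem_finset (U ∪ bxx x b)
    rw [Finset.mem_union, not_or] at hw
    exact ⟨w, hw.1, hw.2⟩
  have hJ := hU v w hvU hwU
  obtain ⟨F, hF⟩ : ∃ F : Set Pt, F = {z | z ∈ St o (wl o σ x a b) (wh o σ x a b) ∧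
    z ∉ U ∩ Wn o σ x a b} := ⟨_, rfl⟩
  rw [← hF]
  have hvF : v ∈ F := by rw [hF]; exact ⟨hv, hvκ⟩
  have key : (∃ v', Jd (!c) F v v' ∧ (co o v' = wl o σ x a b ∨ co o v' = wh o σ x a b - 1 ∨
      FarO o (U ∩ Wn o σ x a b) v')) ∨ (w ∈ bxx x b ∧ Jd (!c) F v w) := by
    have h2 := hJ.2
    clear hJ hwb hwU
    induction h2 with
    | refl => exact Or.inr ⟨hvb, Jd.refl hvF⟩
    | @tail y z _ hyz ih =>
      rcases ih with ih | ⟨ih1, ih2⟩
      · exact Or.inl ih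
      · have hyF := ih2.mem
        have hySt : y ∈ St o (wl o σ x a b) (wh o σ x a b) := by rw [hF] at hyF; exact hyF.1
        by_cases hz : z ∈ St o (wl o σ x a b) (wh o σ x a b)
        · have hzF : z ∈ F := by
            rw [hF]
            exact ⟨hz, fun h => hyz.1 (Finset.mem_coe.2 (Finset.mem_inter.1 h).1)⟩
          have h3 : Jd (!c) F v z := ih2.tail hzF hyz.2
          by_cases hzb : z ∈ bxx x b
          · exact Or.inr ⟨hzb, h3⟩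
          · exact Or.inl ⟨z, h3, Or.inr (Or.inr (hfar z hz hzb))⟩
        · have h3 := hyz.2.coord
          have h4 : co o y - 1 ≤ co o z ∧ co o z ≤ co o y + 1 := by
            cases o
            · exact ⟨h3.2.2.1, h3.2.2.2⟩
            · exact ⟨h3.1, h3.2.1⟩
          unfold St at hz hySt
          rw [Set.mem_ofPred_eq] at hz hySt
          refine Or.inl ⟨y, ih2, ?_⟩
          omega
  rcases key with h | h
  · exact h
  · exact absurd h.1 hwb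

/-! ### Sums over the components -/

theorem sum_sq_le {ι : Type*} (s : Finset ι) (f : ι → ℝ) (hf : ∀ i ∈ s, 0 ≤ f i) :
    ∑ i ∈ s, f i ^ 2 ≤ (∑ i ∈ s, f i) ^ 2 := by
  rw [sq (∑ i ∈ s, f i), Finset.sum_mul]
  refine Finset.sum_le_sum fun i hi => ?_
  rw [sq]
  exact mul_le_mul_of_nonneg_left (Finset.single_le_sum hf hi) (hf i hi)

theorem sum_cmps_sq (c : Bool) (κ : Finset Pt) {G W : ℝ} (hG : 0 ≤ G) (hW : 0 < W)
    (hκ : (κ.card : ℝ) ≤ 7 * W) :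
    ∑ K ∈ cmps c κ, G * ((K.card : ℝ) / W) ^ 2 ≤ G * 49 := by
  rw [← Finset.mul_sum]
  refine mul_le_mul_of_nonneg_left ?_ hG
  refine (sum_sq_le _ _ fun i _ => by positivity).trans ?_
  have h1 : ∑ K ∈ cmps c κ, (K.card : ℝ) / W ≤ 7 := by
    rw [← Finset.sum_div, div_le_iff₀ hW]
    refine le_trans ?_ hκ
    exact_mod_cast sum_cmps c κ
  have h0 : 0 ≤ ∑ K ∈ cmps c κ, (K.card : ℝ) / W := Finset.sum_nonneg fun i _ => by positivity
  nlinarith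

/-! ### Events -/

theorem locS_Jn (c : Bool) (K : Finset Pt) (A B : Set Pt) : LocS K (Jn c ↑K A B) := by
  rintro ω ω' h ⟨u, hu, v, hv, h1⟩
  refine ⟨u, hu, v, hv, h1.mono ?_⟩
  rintro s ⟨hs1, hs2⟩
  refine ⟨?_, hs2⟩
  have h2 : ω s = c := hs1
  show ω' s = c
  rw [← h s (Finset.mem_coe.1 hs2)]
  exact h2

theorem LocS.indS {V V' : Finset Pt} {A : Set Cfg} (h : LocS V A) (hd : Disjoint V V') :
    IndS V' A := by
  intro ω ω' hω
  exact h ω ω' fun v hv => hω v (Finset.disjoint_left.1 hd hv)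

theorem cho_both (h : ∀ o, CHo o Q) : ∃ G : ℝ, 0 < G ∧ ∀ (o c : Bool) (κ : Finset Pt) (y0 y1 : ℤ),
    y0 < y1 → (∀ v ∈ κ, v ∈ St o y0 y1) → NoHo o c κ y0 y1 → ∀ η, Good η →
      Pr Q κ η (Jn c ↑κ (ln o c y0) (ln o c y1)) ≤
        G * ((κ.card : ℝ) / ((y1 - y0 : ℤ) : ℝ) ^ 2) ^ 2 := by
  obtain ⟨G1, h1, k1⟩ := h true
  obtain ⟨G2, h2, k2⟩ := h false
  refine ⟨G1 + G2, by linarith, fun o c κ y0 y1 hy hκ hN η hη => ?_⟩
  have hs : (0 : ℝ) ≤ ((κ.card : ℝ) / ((y1 - y0 : ℤ) : ℝ) ^ 2) ^ 2 := sq_nonneg _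
  cases o
  · refine (k2 c κ y0 y1 hy hκ hN η hη).trans ?_
    exact mul_le_mul_of_nonneg_right (by linarith) hs
  · refine (k1 c κ y0 y1 hy hκ hN η hη).trans ?_
    exact mul_le_mul_of_nonneg_right (by linarith) hs

/-- The crossing of a component of a window. -/
def Cw (o σ c : Bool) (x : Pt) (a b : ℤ) (K : Finset Pt) : Set Cfg :=
  Jn c ↑K (ln o c (wl o σ x a b)) (ln o c (wh o σ x a b))

theorem cw_bd {G : ℝ} (hG : ∀ (o c : Bool) (κ : Finset Pt) (y0 y1 : ℤ),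
    y0 < y1 → (∀ v ∈ κ, v ∈ St o y0 y1) → NoHo o c κ y0 y1 → ∀ η, Good η →
      Pr Q κ η (Jn c ↑κ (ln o c y0) (ln o c y1)) ≤
        G * ((κ.card : ℝ) / ((y1 - y0 : ℤ) : ℝ) ^ 2) ^ 2) {U : Finset Pt} (hU : Cn c U)
    (o σ : Bool) (x : Pt) {a b : ℤ} (ha : 0 ≤ a) (hab : a + 1 < b) {K : Finset Pt}
    (hK : K ∈ cmps c (U ∩ Wn o σ x a b)) {ζ : Cfg} (hζ : Good ζ) :
    Pr Q K ζ (Cw o σ c x a b K) ≤ G * ((K.card : ℝ) / ((b - a - 1 : ℤ) : ℝ) ^ 2) ^ 2 := by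
  have h1 := wh_sub o σ x a b
  rw [← h1]
  refine hG o c K _ _ (by omega) (fun v hv => ?_) ((noHo_win hU o σ x ha hab).cmps hK) ζ hζ
  exact (mem_Wn.1 (Finset.mem_inter.1 (cmps_sub hK hv)).2).2

/-- The product bound for one pair of components. -/
theorem pair_bd (hQ : 0 < Q) {U : Finset Pt} {η : Cfg} (hη : Good η) {K K' M : Finset Pt}
    (hK : K ⊆ U) (hK' : K' ⊆ U) (hM : M ⊆ U) (h1 : Disjoint K K') (h2 : Disjoint K M)
    (h3 : Disjoint K' M) {A A' B : Set Cfg} (hA : LocS K A) (hA' : LocS K' A') {p p' q : ℝ}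
    (hp : ∀ ζ, Good ζ → Pr Q K ζ A ≤ p) (hp' : ∀ ζ, Good ζ → Pr Q K' ζ A' ≤ p')
    (hq : ∀ ζ, Good ζ → Pr Q M ζ B ≤ q) (p0 : 0 ≤ p') (q0 : 0 ≤ q) :
    Pr Q U η ((A ∩ A') ∩ B) ≤ q * (p' * p) := by
  have k0 : ∀ X Y Z : ℝ, X ≤ q * Y → Y ≤ p' * Z → Z ≤ p → X ≤ q * (p' * p) := by
    intro X Y Z h4 h5 h6
    exact h4.trans (mul_le_mul_of_nonneg_left (h5.trans (mul_le_mul_of_nonneg_left h6 p0)) q0)
  have e1 : IndS M (A ∩ A') := by
    intro ω ω' hω h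
    exact ⟨LocS.indS hA h2 ω ω' hω h.1, LocS.indS hA' h3 ω ω' hω h.2⟩
  have k1 := pr_inter hQ hη hM e1.ind hq
  have k2 := pr_inter hQ hη hK' (LocS.indS hA h1).ind hp'
  have e3 : IndS K (Set.univ : Set Cfg) := fun _ _ _ _ => trivial
  have k3 := pr_inter hQ hη hK e3.ind hp
  rw [Set.univ_inter, pr_univ hQ, mul_one] at k3
  exact k0 _ _ _ k1 k2 k3

/-- The sum over the pairs of components of two windows. -/
theorem pairs_bd (hQ : 0 < Q) {U : Finset Pt} {η : Cfg} (hη : Good η) {c : Bool}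
    {κ κ' M : Finset Pt} (hK : κ ⊆ U) (hK' : κ' ⊆ U) (hM : M ⊆ U) (h1 : Disjoint κ κ')
    (h2 : Disjoint κ M) (h3 : Disjoint κ' M) {A : Finset Pt → Set Cfg}
    {A' : Finset Pt → Set Cfg} {B : Finset Pt → Finset Pt → Set Cfg}
    (hA : ∀ K, LocS K (A K)) (hA' : ∀ K, LocS K (A' K)) {G W W' q : ℝ} (hG : 0 ≤ G) (hW : 0 < W)
    (hW' : 0 < W') (hκ : (κ.card : ℝ) ≤ 7 * W) (hκ' : (κ'.card : ℝ) ≤ 7 * W')
    (hp : ∀ K ∈ cmps c κ, ∀ ζ, Good ζ → Pr Q K ζ (A K) ≤ G * ((K.card : ℝ) / W) ^ 2)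
    (hp' : ∀ K ∈ cmps c κ', ∀ ζ, Good ζ → Pr Q K ζ (A' K) ≤ G * ((K.card : ℝ) / W') ^ 2)
    (hq : ∀ K ∈ cmps c κ, ∀ K' ∈ cmps c κ', ∀ ζ, Good ζ → Pr Q M ζ (B K K') ≤ q) (q0 : 0 ≤ q)
    {E : Set Cfg} (hE : ∀ ω ∈ E, ∃ K ∈ cmps c κ, ∃ K' ∈ cmps c κ', ω ∈ (A K ∩ A' K') ∩ B K K') :
    Pr Q U η E ≤ q * (G * 49 * (G * 49)) := by
  have k1 : Pr Q U η E ≤ ∑ i ∈ cmps c κ ×ˢ cmps c κ',
      Pr Q U η ((A i.1 ∩ A' i.2) ∩ B i.1 i.2) := by
    refine pr_sum (ι := Finset Pt × Finset Pt) (D := U) (η := η) (E := E) hQ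
      (cmps c κ ×ˢ cmps c κ') (fun i => (A i.1 ∩ A' i.2) ∩ B i.1 i.2) fun ω hω => ?_
    obtain ⟨K, h4, K', h5, h6⟩ := hE ω hω
    exact ⟨(K, K'), Finset.mem_product.2 ⟨h4, h5⟩, h6⟩
  have k2 : ∀ i ∈ cmps c κ ×ˢ cmps c κ', Pr Q U η ((A i.1 ∩ A' i.2) ∩ B i.1 i.2) ≤
      q * ((G * ((i.2.card : ℝ) / W') ^ 2) * (G * ((i.1.card : ℝ) / W) ^ 2)) := by
    intro i hi
    rw [Finset.mem_product] at hi
    have s1 := cmps_sub hi.1
    have s2 := cmps_sub hi.2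
    exact pair_bd hQ hη (s1.trans hK) (s2.trans hK') hM (Finset.disjoint_of_subset_left s1
      (Finset.disjoint_of_subset_right s2 h1)) (Finset.disjoint_of_subset_left s1 h2)
      (Finset.disjoint_of_subset_left s2 h3) (hA _) (hA' _) (hp _ hi.1) (hp' _ hi.2)
      (hq _ hi.1 _ hi.2) (by positivity) q0
  refine k1.trans ((Finset.sum_le_sum k2).trans ?_)
  rw [← Finset.mul_sum]
  refine mul_le_mul_of_nonneg_left ?_ q0
  rw [Finset.sum_product_right]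
  dsimp only
  rw [← Finset.sum_mul_sum]
  have k3 := sum_cmps_sq c κ hG hW hκ
  have k4 := sum_cmps_sq c κ' hG hW' hκ'
  refine mul_le_mul k4 k3 (Finset.sum_nonneg fun i _ => by positivity) (by positivity)

/-! ### The theorem -/

theorem card_win {U : Finset Pt} {o σ : Bool} {x : Pt} {a b : ℤ} (ha : 0 ≤ a) (hab : a + 1 < b)
    (h : 2 * b + 1 ≤ 7 * (b - a - 1)) :
    (((U ∩ Wn o σ x a b).card : ℕ) : ℝ) ≤ 7 * ((b - a - 1 : ℤ) : ℝ) ^ 2 := by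
  have h1 : ((U ∩ Wn o σ x a b).card : ℤ) ≤ (Wn o σ x a b).card := by
    exact_mod_cast Finset.card_le_card Finset.inter_subset_right
  have h2 := card_Wn (o := o) (σ := σ) (x := x) (a := a) (b := b) (by omega) (by omega)
  have h3 : ((U ∩ Wn o σ x a b).card : ℤ) ≤ 7 * (b - a - 1) ^ 2 := by nlinarith
  exact_mod_cast h3

/-- A crossing of the ring crosses a window of each of the two subrings. -/
theorem two_win {c : Bool} {x : Pt} {U : Finset Pt} {a b a' b' r R : ℤ} (hab : a + 1 < b)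
    (hab' : a' + 1 < b') (h1 : r ≤ a) (h2 : b ≤ a') (h3 : b' ≤ R) {ω : Cfg}
    (hω : ω ∈ Jn c ↑U (Si c x r) (So c x R)) : ∃ i : (Bool × Bool) × (Bool × Bool),
      ∃ K ∈ cmps c (U ∩ Wn i.1.1 i.1.2 x a b), ∃ K' ∈ cmps c (U ∩ Wn i.2.1 i.2.2 x a' b'),
        ω ∈ (Cw i.1.1 i.1.2 c x a b K ∩ Cw i.2.1 i.2.2 c x a' b' K') ∩
          Jn c ↑U (Vc c ↑K) (Vc c ↑K') := by
  obtain ⟨u, ⟨hu1, hu2⟩, v, ⟨hv1, hv2⟩, h⟩ := hω
  obtain ⟨o, σ, s, s', k1, k2, k3, k4⟩ := win hab h (x := x) (by omega) (by omega)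
  obtain ⟨o', σ', t, t', l1, l2, l3, l4⟩ := win hab' h (x := x) (by omega) (by omega)
  have e : ∀ W : Finset Pt, (cs c ω ∩ ↑U) ∩ ↑W = cs c ω ∩ (↑(U ∩ W) : Set Pt) := by
    intro W
    rw [Finset.coe_inter, Set.inter_assoc]
  rw [e] at k4 l4
  have p1 : (s.1 + s.2) % 2 = pr c := by rw [← k3.parity]; exact hu1
  have p2 : (t.1 + t.2) % 2 = pr c := by rw [← l3.parity]; exact hu1
  have p1' : (s'.1 + s'.2) % 2 = pr c := by rw [← k4.parity]; exact p1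
  have p2' : (t'.1 + t'.2) % 2 = pr c := by rw [← l4.parity]; exact p2
  have n1 : s ≠ s' := by
    rintro rfl
    have := wh_sub o σ x a b
    omega
  have n2 : t ≠ t' := by
    rintro rfl
    have := wh_sub o' σ' x a' b'
    omega
  obtain ⟨K, m1, m2, m3, -⟩ := exists_cmps p1 n1 k4
  obtain ⟨K', m1', m2', m3', -⟩ := exists_cmps p2 n2 l4
  refine ⟨((o, σ), (o', σ')), K, m1, K', m1', ⟨⟨s, ⟨k1, p1⟩, s', ⟨k2, p1'⟩, m2⟩,
    t, ⟨l1, p2⟩, t', ⟨l2, p2'⟩, m2'⟩, s, m3, t, m3', (Pw.symm k3).trans l3⟩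

theorem Pr_le_one' (hQ : 0 < Q) {D : Finset Pt} {η : Cfg} (A : Set Cfg) : Pr Q D η A ≤ 1 := by
  rw [← pr_univ (Q := Q) (D := D) (η := η) hQ]
  exact Pr_mono hQ (Set.subset_univ A)

/-- **One arm in a rough set of squares of a ring with connected complement.** -/
theorem utg_of (hQ : 0 < Q) (hCH : ∀ o, CHo o Q) (hB : Bar Q) : UTg Q := by
  obtain ⟨G, hG, hG'⟩ := cho_both hCH
  obtain ⟨α, C, hα, hC, hB⟩ := hB
  have p18 : (0 : ℝ) < (18 : ℝ) ^ α := Real.rpow_pos_of_pos (by norm_num) _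
  have p20 : (0 : ℝ) < (20 : ℝ) ^ α := Real.rpow_pos_of_pos (by norm_num) _
  refine ⟨α, 16 * (C * (18 : ℝ) ^ α * (G * 49 * (G * 49))) + (20 : ℝ) ^ α, hα, by positivity, ?_⟩
  intro c x r R hr hrR U hU hCn η hη
  have hr0 : (0 : ℝ) < r := by exact_mod_cast (by omega : 0 < r)
  have hR0 : (0 : ℝ) < R := by exact_mod_cast (by omega : 0 < R)
  have hrR0 : (0 : ℝ) < (r : ℝ) / R := div_pos hr0 hR0
  have prR : (0 : ℝ) < ((r : ℝ) / R) ^ α := Real.rpow_pos_of_pos hrR0 _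
  rcases lt_or_ge R (20 * r) with hR | hR
  · refine (Pr_le_one' hQ _).trans ?_
    have h1 : (1 : ℝ) ≤ (20 : ℝ) ^ α * ((r : ℝ) / R) ^ α := by
      rw [← Real.mul_rpow (by norm_num) hrR0.le]
      refine Real.one_le_rpow ?_ hα.le
      rw [← mul_div_assoc, le_div_iff₀ hR0, one_mul]
      exact_mod_cast hR.le
    have h2 : 0 ≤ 16 * (C * (18 : ℝ) ^ α * (G * 49 * (G * 49))) * ((r : ℝ) / R) ^ α := by
      positivity
    nlinarith
  obtain ⟨a, ha⟩ : ∃ a : ℤ, a = r + 2 := ⟨_, rfl⟩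
  obtain ⟨b, hb⟩ : ∃ b : ℤ, b = 2 * r + 4 := ⟨_, rfl⟩
  obtain ⟨a', ha'⟩ : ∃ a' : ℤ, a' = R / 2 := ⟨_, rfl⟩
  obtain ⟨b', hb'⟩ : ∃ b' : ℤ, b' = R - 1 := ⟨_, rfl⟩
  have hba' : b ≤ a' := by omega
  have hsub : bxx x b ⊆ bxx x a' := by
    intro v hv
    rw [mem_bxx] at hv ⊢
    omega
  have hx0 : nm (x - x) = 0 := by simp [nm]
  have hxU : ∃ v ∈ bxx x b, v ∉ U := by
    refine ⟨x, ?_, fun h => ?_⟩
    · rw [mem_bxx, hx0]
      omega
    · have h1 := (Finset.mem_sdiff.1 (hU h)).2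
      apply h1
      rw [mem_bxx, hx0]
      omega
  obtain ⟨M, hM⟩ : ∃ M : Finset Pt, M = U ∩ (bxx x a' \ bxx x b) := ⟨_, rfl⟩
  have nW : ∀ o σ : Bool, U ∩ Wn o σ x a b ⊆ bxx x b := fun o σ v hv =>
    (mem_Wn.1 (Finset.mem_inter.1 hv).2).1
  have fW : ∀ o σ : Bool, ∀ v ∈ U ∩ Wn o σ x a' b', v ∉ bxx x a' := fun o σ v hv =>
    (Finset.mem_sdiff.1 (Wn_sub (Finset.mem_inter.1 hv).2)).2
  have h0 : (0 : ℝ) ≤ C * ((b : ℝ) / a') ^ α := by
    have : (0 : ℝ) ≤ (b : ℝ) / a' := by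
      have h1 : (0 : ℝ) ≤ b := by exact_mod_cast (by omega : 0 ≤ b)
      have h2 : (0 : ℝ) ≤ a' := by exact_mod_cast (by omega : 0 ≤ a')
      exact div_nonneg h1 h2
    have := Real.rpow_nonneg this α
    positivity
  obtain ⟨E, hE⟩ : ∃ E : (Bool × Bool) × (Bool × Bool) → Set Cfg, E = fun i =>
    {ω | ∃ K ∈ cmps c (U ∩ Wn i.1.1 i.1.2 x a b), ∃ K' ∈ cmps c (U ∩ Wn i.2.1 i.2.2 x a' b'),
        ω ∈ (Cw i.1.1 i.1.2 c x a b K ∩ Cw i.2.1 i.2.2 c x a' b' K') ∩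
          Jn c ↑U (Vc c ↑K) (Vc c ↑K')} := ⟨_, rfl⟩
  have k1 : Pr Q U η (Jn c ↑U (Si c x (r + 2)) (So c x (R - 1))) ≤
      ∑ i ∈ (Finset.univ : Finset ((Bool × Bool) × (Bool × Bool))), Pr Q U η (E i) := by
    refine pr_sum (ι := (Bool × Bool) × (Bool × Bool)) (D := U) (η := η) hQ Finset.univ E
      fun ω hω => ?_
    obtain ⟨i, h1⟩ := two_win (a := a) (b := b) (a' := a') (b' := b') (by omega) (by omega)
      (by omega) hba' (by omega) hω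
    exact ⟨i, Finset.mem_univ i, by rw [hE]; exact h1⟩
  have k2 : ∀ i ∈ (Finset.univ : Finset ((Bool × Bool) × (Bool × Bool))),
      Pr Q U η (E i) ≤ C * ((b : ℝ) / a') ^ α * (G * 49 * (G * 49)) := by
    intro i _
    have w1 : (0 : ℝ) < ((b - a - 1 : ℤ) : ℝ) ^ 2 := by
      have : (0 : ℝ) < ((b - a - 1 : ℤ) : ℝ) := by exact_mod_cast (by omega : 0 < b - a - 1)
      positivity
    have w2 : (0 : ℝ) < ((b' - a' - 1 : ℤ) : ℝ) ^ 2 := by
      have : (0 : ℝ) < ((b' - a' - 1 : ℤ) : ℝ) := by exact_mod_cast (by omega : 0 < b' - a' - 1)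
      positivity
    refine pairs_bd (c := c) (M := M) hQ hη Finset.inter_subset_left Finset.inter_subset_left
      (by rw [hM]; exact Finset.inter_subset_left) ?_ ?_ ?_
      (A := fun K => Cw i.1.1 i.1.2 c x a b K) (A' := fun K => Cw i.2.1 i.2.2 c x a' b' K)
      (B := fun K K' => Jn c ↑U (Vc c ↑K) (Vc c ↑K')) (fun K => locS_Jn c K _ _)
      (fun K => locS_Jn c K _ _) hG.le w1 w2 (card_win (by omega) (by omega) (by omega))
      (card_win (by omega) (by omega) (by omega))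
      (fun K hK ζ hζ => cw_bd hG' hCn i.1.1 i.1.2 x (by omega) (by omega) hK hζ)
      (fun K hK ζ hζ => cw_bd hG' hCn i.2.1 i.2.2 x (by omega) (by omega) hK hζ)
      (fun K hK K' hK' ζ hζ => ?_) h0 (fun ω hω => by rw [hE] at hω; exact hω)
    · refine Finset.disjoint_left.2 fun v h1 h2 => ?_
      exact fW _ _ v h2 (hsub (nW _ _ h1))
    · refine Finset.disjoint_left.2 fun v h1 h2 => ?_
      rw [hM, Finset.mem_inter, Finset.mem_sdiff] at h2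
      exact h2.2.2 (nW _ _ h1)
    · refine Finset.disjoint_left.2 fun v h1 h2 => ?_
      rw [hM, Finset.mem_inter, Finset.mem_sdiff] at h2
      exact fW _ _ v h1 h2.2.1
    · rw [hM]
      refine hB c x b a' (by omega) hba' U K K' hCn hxU
        ((cmps_sub hK).trans Finset.inter_subset_left) ((cmps_sub hK).trans (nW _ _))
        (fun v hv z hz => cmps_con hK hv hz) ((cmps_sub hK').trans Finset.inter_subset_left) ?_
        (fun v hv z hz => cmps_con hK' hv hz) ζ hζ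
      exact Finset.disjoint_left.2 fun v h1 h2 => fW _ _ v (cmps_sub hK' h1) h2
  have k3 := k1.trans (Finset.sum_le_card_nsmul _ _ _ k2)
  have k4 : ((b : ℝ) / a') ^ α ≤ (18 : ℝ) ^ α * ((r : ℝ) / R) ^ α := by
    rw [← Real.mul_rpow (by norm_num) hrR0.le]
    have h1 : (0 : ℝ) ≤ b := by exact_mod_cast (by omega : 0 ≤ b)
    have h2 : (0 : ℝ) < a' := by exact_mod_cast (by omega : 0 < a')
    refine Real.rpow_le_rpow (div_nonneg h1 h2.le) ?_ hα.le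
    rw [← mul_div_assoc, div_le_div_iff₀ h2 hR0]
    have h3 : (b : ℝ) ≤ 6 * r := by exact_mod_cast (by omega : b ≤ 6 * r)
    have h4 : (R : ℝ) ≤ 3 * a' := by exact_mod_cast (by omega : R ≤ 3 * a')
    nlinarith
  have h5 : (Finset.univ : Finset ((Bool × Bool) × (Bool × Bool))).card = 16 := by decide
  rw [h5, nsmul_eq_mul] at k3
  push_cast at k3
  have hGG : (0 : ℝ) < G * 49 * (G * 49) := by positivity
  have k5 : C * ((b : ℝ) / a') ^ α * (G * 49 * (G * 49)) ≤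
      C * ((18 : ℝ) ^ α * ((r : ℝ) / R) ^ α) * (G * 49 * (G * 49)) :=
    mul_le_mul_of_nonneg_right (mul_le_mul_of_nonneg_left k4 hC.le) hGG.le
  have k6 : 0 ≤ (20 : ℝ) ^ α * ((r : ℝ) / R) ^ α := by positivity
  calc Pr Q U η (Jn c ↑U (Si c x (r + 2)) (So c x (R - 1)))
      ≤ 16 * (C * ((b : ℝ) / a') ^ α * (G * 49 * (G * 49))) := k3
    _ ≤ 16 * (C * ((18 : ℝ) ^ α * ((r : ℝ) / R) ^ α) * (G * 49 * (G * 49))) := by linarith
    _ ≤ (16 * (C * (18 : ℝ) ^ α * (G * 49 * (G * 49))) + (20 : ℝ) ^ α) * ((r : ℝ) / R) ^ α := by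
        nlinarith

/-! ### The form of `N.QC` -/

theorem adj_of_oa {v w : Pt} (h : N.QC.Oa v w) : Adj false v w := by
  obtain ⟨u, h0, h1, h2⟩ := h
  exact ⟨u, ⟨h1.1, h1.2, h0⟩, ⟨h2.1, h2.2, h0⟩⟩

theorem cn_of {G : Finset Pt} (h : N.QC.OcC G) : Cn true G := by
  intro v w hv hw
  refine ⟨hv, ?_⟩
  have h1 := h v w hv hw
  induction h1 with
  | refl => exact ReflTransGen.refl
  | tail _ h2 ih => exact (ih h2.1).tail ⟨h2.2.1, adj_of_oa h2.2.2⟩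

/-- The literal form of `N.QC.UTc`. -/
theorem utc_of (hQ : 0 < Q) (h : UTg Q) : N.QC.UTc Q := by
  obtain ⟨α, C, hα, hC, h⟩ := h
  refine ⟨α, C, hα, hC, fun x r R hr hrR G hG hO η hη => ?_⟩
  refine (Pr_mono hQ ?_).trans (h true x r R hr hrR G hG (cn_of hO) η hη)
  rintro ω ⟨s, t, h1, h2, h3, h4⟩
  have h6 : FKA.Op G ω ⊆ cs true ω ∩ ↑G := fun v hv => ⟨hv.2, Finset.mem_coe.2 hv.1⟩
  have h5 : Pw (cs true ω ∩ ↑G) s t := Pw.mono h6 h4
  exact ⟨s, ⟨h1, h2⟩, t, ⟨by rw [← h5.parity]; exact h1, h3⟩, h5⟩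

end Vale.Agent.P167.H564
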