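import Vale.Agent.P167.H24.ChDef
import Vale.Agent.P167.H24.ChP

/-!
# P167, rough channels in rings: windows

`cross_co`: a path which crosses a strip contains a crossing of the strip. `exit_box`: a path which
leaves a box. `win`: a path which crosses a ring crosses one of its four windows the short way.
-/

set_option autoImplicit false

namespace Vale.Agent.P167.H564

open Finset Vale.Agent.P167 Vale.Agent.P167.FK Vale.Agent.P167.H871 Vale.Agent.P167.H632
  Vale.Agent.P167.H192.TA
open Vale.Agent.P167.N Vale.Agent.P167.H24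
open Vale.Agent.P167.H166 (bxx mem_bxx)
open Vale.Agent.P145.FB (PStep PConn)
open Relation (ReflTransGen)

/-- The coordinate of index `o`. -/
def co (o : Bool) (s : Pt) : ℤ := if o then s.1 else s.2

theorem co_true (s : Pt) : co true s = s.1 := rfl

theorem co_false (s : Pt) : co false s = s.2 := rfl

theorem step_co {F : Set Pt} {x y : Pt} (h : PStep F x y) (o : Bool) :
    co o (min x.1 y.1, min x.2 y.2) = min (co o x) (co o y) ∧
      (co o y = co o x + 1 ∨ co o y = co o x - 1) := by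
  obtain ⟨h1, h2, -⟩ := h
  cases o
  · exact ⟨rfl, h2⟩
  · exact ⟨rfl, h1⟩

theorem co_le_nm (o : Bool) (s x : Pt) : |co o s - co o x| ≤ nm (s - x) := by
  cases o
  · exact le_max_right _ _
  · exact le_max_left _ _

theorem exists_co {s x : Pt} {b : ℤ} (h : b ≤ nm (s - x)) : ∃ o : Bool, b ≤ |co o s - co o x| := by
  rcases le_max_iff.1 h with h | h
  · exact ⟨true, h⟩
  · exact ⟨false, h⟩

theorem nm_le_iff {s x : Pt} {b : ℤ} : nm (s - x) ≤ b ↔ ∀ o : Bool, |co o s - co o x| ≤ b := by
  constructor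
  · exact fun h o => (co_le_nm o s x).trans h
  · intro h
    exact max_le (h true) (h false)

/-- The strip. -/
def St (o : Bool) (y0 y1 : ℤ) : Set Pt := {z | y0 ≤ co o z ∧ co o z < y1}

/-- A path which crosses a strip contains a crossing of the strip. -/
theorem cross_co {F : Set Pt} {o : Bool} {u v : Pt} {y0 y1 : ℤ} (hy : y0 < y1) (h : Pw F u v)
    (hu : co o u ≤ y0) (hv : y1 ≤ co o v) :
    ∃ s s', co o s = y0 ∧ co o s' = y1 ∧ Pw F u s ∧ Pw (F ∩ St o y0 y1) s s' := by
  have key : (∃ s s', co o s = y0 ∧ co o s' = y1 ∧ Pw F u s ∧ Pw (F ∩ St o y0 y1) s s') ∨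
      co o v ≤ y0 ∨ (co o v < y1 ∧ y0 ≤ co o v ∧
        ∃ s, co o s = y0 ∧ Pw F u s ∧ Pw (F ∩ St o y0 y1) s v) := by
    clear hv
    induction h with
    | refl => exact Or.inr (Or.inl hu)
    | @tail y z hy' hyz ih =>
      obtain ⟨h1, h2⟩ := step_co hyz o
      rcases ih with ih | ih | ⟨ih1, ih2, s, ih3, ih4, ih5⟩
      · exact Or.inl ih
      · rcases h2 with h2 | h2
        · by_cases h3 : co o z ≤ y0
          · exact Or.inr (Or.inl h3)
          · have h4 : co o y = y0 := by omega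
            have h5 : (min y.1 z.1, min y.2 z.2) ∈ St o y0 y1 := by
              unfold St
              rw [Set.mem_ofPred_eq, h1, h2]
              omega
            have h6 : Pw (F ∩ St o y0 y1) y z :=
              ReflTransGen.single ⟨hyz.1, hyz.2.1, hyz.2.2, h5⟩
            by_cases h7 : co o z < y1
            · exact Or.inr (Or.inr ⟨h7, by omega, y, h4, hy', h6⟩)
            · exact Or.inl ⟨y, z, h4, by omega, hy', h6⟩
        · exact Or.inr (Or.inl (by omega))
      · rcases h2 with h2 | h2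
        · have h5 : (min y.1 z.1, min y.2 z.2) ∈ St o y0 y1 := by
            unfold St
            rw [Set.mem_ofPred_eq, h1, h2]
            omega
          have h6 : Pw (F ∩ St o y0 y1) s z := ih5.tail ⟨hyz.1, hyz.2.1, hyz.2.2, h5⟩
          by_cases h7 : co o z < y1
          · exact Or.inr (Or.inr ⟨h7, by omega, s, ih3, ih4, h6⟩)
          · exact Or.inl ⟨s, z, ih3, by omega, ih4, h6⟩
        · by_cases h8 : co o z < y0
          · exact Or.inr (Or.inl (by omega))
          · have h5 : (min y.1 z.1, min y.2 z.2) ∈ St o y0 y1 := by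
              unfold St
              rw [Set.mem_ofPred_eq, h1, h2]
              omega
            exact Or.inr (Or.inr ⟨by omega, by omega, s, ih3, ih4,
              ih5.tail ⟨hyz.1, hyz.2.1, hyz.2.2, h5⟩⟩)
  rcases key with h1 | h1 | h1
  · exact h1
  · omega
  · omega

/-- A path which leaves a box. -/
theorem exit_box {F : Set Pt} {x u v : Pt} {b : ℤ} (h : Pw F u v) (hu : nm (u - x) ≤ b)
    (hv : b ≤ nm (v - x)) : ∃ w, nm (w - x) = b ∧ Pw (F ∩ ↑(bxx x b)) u w := by
  have key : (∃ w, nm (w - x) = b ∧ Pw (F ∩ ↑(bxx x b)) u w) ∨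
      (nm (v - x) < b ∧ Pw (F ∩ ↑(bxx x b)) u v) := by
    clear hv
    induction h with
    | refl =>
      rcases lt_or_eq_of_le hu with h | h
      · exact Or.inr ⟨h, ReflTransGen.refl⟩
      · exact Or.inl ⟨u, h, ReflTransGen.refl⟩
    | @tail y z hy' hyz ih =>
      rcases ih with ih | ⟨ih1, ih2⟩
      · exact Or.inl ih
      · have h5 : (min y.1 z.1, min y.2 z.2) ∈ (↑(bxx x b) : Set Pt) := by
          obtain ⟨h1, h2, -⟩ := hyz
          rw [Finset.mem_coe, mem_bxx]
          simp only [nm, Prod.fst_sub, Prod.snd_sub, max_lt_iff, max_le_iff, abs_lt, abs_le] at *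
          omega
        have h6 : nm (z - x) ≤ b := by
          obtain ⟨h1, h2, -⟩ := hyz
          simp only [nm, Prod.fst_sub, Prod.snd_sub, max_lt_iff, max_le_iff, abs_lt, abs_le] at *
          omega
        have h7 : Pw (F ∩ ↑(bxx x b)) u z := ih2.tail ⟨hyz.1, hyz.2.1, hyz.2.2, h5⟩
        rcases lt_or_eq_of_le h6 with h | h
        · exact Or.inr ⟨h, h7⟩
        · exact Or.inl ⟨z, h, h7⟩
  rcases key with h1 | h1
  · exact h1
  · omega

/-- The window of the ring `a < |·| ≤ b` in the direction `o`, side `σ`. -/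
noncomputable def Wn (o σ : Bool) (x : Pt) (a b : ℤ) : Finset Pt :=
  (bxx x b).filter fun v => if σ then co o x + a + 1 ≤ co o v ∧ co o v < co o x + b
    else co o x - b ≤ co o v ∧ co o v < co o x - a - 1

/-- The first line of the window. -/
def wl (o σ : Bool) (x : Pt) (a b : ℤ) : ℤ := if σ then co o x + a + 1 else co o x - b

/-- The last line of the window. -/
def wh (o σ : Bool) (x : Pt) (a b : ℤ) : ℤ := if σ then co o x + b else co o x - a - 1

theorem wh_sub (o σ : Bool) (x : Pt) (a b : ℤ) : wh o σ x a b - wl o σ x a b = b - a - 1 := by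
  unfold wh wl
  split_ifs <;> ring

theorem mem_Wn {o σ : Bool} {x : Pt} {a b : ℤ} {v : Pt} :
    v ∈ Wn o σ x a b ↔ v ∈ bxx x b ∧ v ∈ St o (wl o σ x a b) (wh o σ x a b) := by
  unfold Wn St wl wh
  rw [Finset.mem_filter, Set.mem_ofPred_eq]
  split_ifs <;> rfl

theorem Wn_sub {o σ : Bool} {x : Pt} {a b : ℤ} :
    Wn o σ x a b ⊆ bxx x b \ bxx x a := by
  intro v hv
  rw [mem_Wn] at hv
  rw [Finset.mem_sdiff]
  refine ⟨hv.1, fun h => ?_⟩
  rw [mem_bxx, nm_le_iff] at h
  have h1 := h o
  have h2 := hv.2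
  unfold St wl wh at h2
  rw [Set.mem_ofPred_eq] at h2
  rw [abs_le] at h1
  split_ifs at h2 <;> omega

/-- **Windows.** -/
theorem win {F : Set Pt} {x u v : Pt} {a b : ℤ} (hab : a + 1 < b) (h : Pw F u v)
    (hu : nm (u - x) ≤ a) (hv : b ≤ nm (v - x)) :
    ∃ o σ : Bool, ∃ s s', co o s = wl o σ x a b ∧ co o s' = wh o σ x a b ∧ Pw F u s ∧
      Pw (F ∩ ↑(Wn o σ x a b)) s s' := by
  obtain ⟨w, hw, h1⟩ := exit_box h (by omega) hv
  obtain ⟨o, ho⟩ := exists_co hw.ge
  have h2 : ∀ σ, (F ∩ ↑(bxx x b)) ∩ St o (wl o σ x a b) (wh o σ x a b) =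
      F ∩ ↑(Wn o σ x a b) := by
    intro σ
    ext z
    simp only [Set.mem_inter_iff, Finset.mem_coe, mem_Wn]
    tauto
  have h3 : ∀ σ, wl o σ x a b < wh o σ x a b := by
    intro σ
    have := wh_sub o σ x a b
    omega
  have h4 := (nm_le_iff.1 hu) o
  rw [abs_le] at h4
  rcases le_abs.1 ho with h5 | h5
  · obtain ⟨s, s', k1, k2, k3, k4⟩ := cross_co (o := o) (h3 true) h1
      (by unfold wl; rw [if_pos rfl]; omega) (by unfold wh; rw [if_pos rfl]; omega)
    rw [h2] at k4
    exact ⟨o, true, s, s', k1, k2, k3.mono Set.inter_subset_left, k4⟩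
  · obtain ⟨s, s', k1, k2, k3, k4⟩ := cross_co (o := o) (h3 false) h1.symm
      (by unfold wl; rw [if_neg Bool.false_ne_true]; omega)
      (by unfold wh; rw [if_neg Bool.false_ne_true]; omega)
    rw [h2] at k4
    exact ⟨o, false, s, s', k1, k2, Pw.mono Set.inter_subset_left (h1.trans k3), k4⟩

theorem card_bxx {x : Pt} {b : ℤ} (hb : 0 ≤ b) : ((bxx x b).card : ℤ) = (2 * b + 1) ^ 2 := by
  unfold bxx
  rw [Finset.card_product, Int.card_Icc, Int.card_Icc]
  push_cast
  rw [Int.toNat_of_nonneg (by omega), Int.toNat_of_nonneg (by omega)]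
  ring

theorem card_Wn {o σ : Bool} {x : Pt} {a b : ℤ} (hb : 0 ≤ b) (hab : a + 1 ≤ b) :
    ((Wn o σ x a b).card : ℤ) ≤ (2 * b + 1) * (b - a - 1) := by
  have h1 : Wn o σ x a b ⊆ if o
      then Finset.Ico (wl o σ x a b) (wh o σ x a b) ×ˢ Finset.Icc (x.2 - b) (x.2 + b)
      else Finset.Icc (x.1 - b) (x.1 + b) ×ˢ Finset.Ico (wl o σ x a b) (wh o σ x a b) := by
    intro v hv
    rw [mem_Wn, mem_bxx, nm_le_iff] at hv
    have h1 := hv.1 true
    have h2 := hv.1 false
    have h3 := hv.2
    unfold St at h3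
    rw [Set.mem_ofPred_eq] at h3
    rw [co_true, co_true, abs_le] at h1
    rw [co_false, co_false, abs_le] at h2
    cases o
    · rw [if_neg Bool.false_ne_true, Finset.mem_product, Finset.mem_Icc, Finset.mem_Ico]
      rw [co_false] at h3
      omega
    · rw [if_pos rfl, Finset.mem_product, Finset.mem_Icc, Finset.mem_Ico]
      rw [co_true] at h3
      omega
  have h2 := Finset.card_le_card h1
  have h3 := wh_sub o σ x a b
  have h4 : ((Finset.Ico (wl o σ x a b) (wh o σ x a b)).card : ℤ) = b - a - 1 := by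
    rw [Int.card_Ico, Int.toNat_of_nonneg (by omega), h3]
  have h5 : ∀ y : ℤ, ((Finset.Icc (y - b) (y + b)).card : ℤ) = 2 * b + 1 := by
    intro y
    rw [Int.card_Icc, Int.toNat_of_nonneg (by omega)]
    ring
  have h6 : ((Wn o σ x a b).card : ℤ) ≤ ((if o
      then Finset.Ico (wl o σ x a b) (wh o σ x a b) ×ˢ Finset.Icc (x.2 - b) (x.2 + b)
      else Finset.Icc (x.1 - b) (x.1 + b) ×ˢ Finset.Ico (wl o σ x a b) (wh o σ x a b)).card : ℤ) := by
    exact_mod_cast h2
  refine h6.trans ?_
  split_ifs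
  · rw [Finset.card_product]
    push_cast
    rw [h4, h5]
    exact le_of_eq (by ring)
  · rw [Finset.card_product]
    push_cast
    rw [h4, h5]

end Vale.Agent.P167.H564
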